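import Vale.Agent.P042.H678.RowM

/-!
# P042, block [B]: the connected parts of an arbitrary signed measure

`tau` is a signed measure (e.g. the law `mu` multiplied by a character `e(a n / m)`, or by a
product of centred deltas at far coordinates), `k` its connected part with respect to the law `mu`
(`gr tau D = ∑_{C ⊆ D} k_C gr mu (D \ C)`).  Then at the rates of the multi-coordinate entropy
inequality

`∑_{|e| = d} ∏_{j ∈ e} (t_j / M_j) ‖k_e‖^2 ≤ 3 d! (d+1)^d * E_R E_{x_R ~ mu} (d tau_R / d mu_R)^2`.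

The right side is bounded by the level inequality for the pinned laws.
-/

set_option autoImplicit false
set_option linter.unusedSectionVars false

namespace Vale.Agent.P042.H879

open Finset Vale.Agent.P042.H461 Vale.Agent.P042.H416 Vale.Agent.P042.H742 Vale.Agent.P042.H678
open Vale.Agent.P042.H779 (marg m1)
open Vale.Agent.P042.H540 (Loc loc_of_dep dep_of_loc Rho wt Idx mem_Idx sum_Idx rotT sum_rotT repF
  repF_point rot_conv gr_loc marg_eq_lw_gr nrm_rotT rotT_Z mix_eq rotT_loc rotT_card)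

variable {ι : Type*} [Fintype ι] [DecidableEq ι] {V : ι → Type*} [∀ i, Fintype (V i)]
  [∀ i, DecidableEq (V i)]

/-- `E_{x_R ~ mu} (d tau_R / d mu_R)^2` -/
noncomputable def chiR (mu tau : (∀ i, V i) → ℝ) (R : Finset ι) : ℝ :=
  ∑ x, mu x * (marg tau R x / marg mu R x) ^ 2

/-- its average over the Bernoulli sets of rates `t` -/
noncomputable def chi (t : ι → ℝ) (mu tau : (∀ i, V i) → ℝ) : ℝ :=
  ∑ R : Finset ι, bw t R * chiR mu tau R

/-- the connected part of the signed measure `tau` with respect to `mu` -/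
def IsConn (lam : ∀ i, V i → ℝ) (mu tau : (∀ i, V i) → ℝ)
    (k : Finset ι → (∀ i, V i) → ℝ) : Prop :=
  ∀ (D : Finset ι) (x : ∀ i, V i), W lam x ≠ 0 →
    H742.gr lam tau D x = ∑ C ∈ D.powerset, k C x * H742.gr lam mu (D \ C) x

theorem chiR_nonneg {mu tau : (∀ i, V i) → ℝ} (hmu : ∀ x, 0 ≤ mu x) (R : Finset ι) :
    0 ≤ chiR mu tau R :=
  Finset.sum_nonneg fun x _ => mul_nonneg (hmu x) (sq_nonneg _)

theorem chi_nonneg {t : ι → ℝ} (ht0 : ∀ i, 0 ≤ t i) (ht1 : ∀ i, t i ≤ 1)
    {mu tau : (∀ i, V i) → ℝ} (hmu : ∀ x, 0 ≤ mu x) : 0 ≤ chi t mu tau :=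
  Finset.sum_nonneg fun R _ => mul_nonneg (bw_nonneg ht0 ht1 R) (chiR_nonneg hmu R)

/-- weighted Cauchy-Schwarz -/
theorem wcs {A : Type*} (s : Finset A) (w f g : A → ℝ) (hw : ∀ a ∈ s, 0 ≤ w a) :
    (∑ a ∈ s, w a * (f a * g a)) ^ 2 ≤ (∑ a ∈ s, w a * f a ^ 2) * ∑ a ∈ s, w a * g a ^ 2 := by
  refine Finset.sum_sq_le_sum_mul_sum_of_sq_le_mul s
    (fun a ha => mul_nonneg (hw a ha) (sq_nonneg _))
    (fun a ha => mul_nonneg (hw a ha) (sq_nonneg _)) fun a _ => le_of_eq ?_
  ring

/-- Testing a signed measure against a family, through Bernoulli sets of coordinates. -/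
theorem cs_test {t : ι → ℝ} (ht0 : ∀ i, 0 < t i) (ht1 : ∀ i, t i ≤ 1)
    {mu tau : (∀ i, V i) → ℝ} (hmu : IsLaw mu) (hac : AC tau mu)
    (T : Finset ι → (∀ i, V i) → ℝ) (hdep : ∀ D, DependsOn (T D) (D : Set ι)) :
    (∑ x, tau x * ∑ D, T D x) ^ 2 ≤ chi t mu tau * ∑ x, mu x * AJ t T x := by
  classical
  obtain ⟨x0⟩ : Nonempty (∀ i, V i) := by
    by_contra hc
    rw [not_nonempty_iff] at hc
    have := hmu.2
    simp at this
  have ht : ∀ i, t i ≠ 0 := fun i => (ht0 i).ne'
  have htD : ∀ D : Finset ι, ∏ i ∈ D, t i ≠ 0 := fun D => Finset.prod_ne_zero_iff.2 fun i _ => ht i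
  have hw0 : ∀ R, 0 ≤ bw t R := bw_nonneg (fun i => (ht0 i).le) ht1
  set F : ∀ R : Finset ι, (∀ i : {i // i ∈ R}, V i) → ℝ := fun R y =>
    ∑ D ∈ R.powerset, (∏ i ∈ D, t i)⁻¹ *
      T D (fun i => if h : i ∈ R then y ⟨i, h⟩ else x0 i) with hF
  have hFx : ∀ (R : Finset ι) (x : ∀ i, V i),
      F R (rst R x) = ∑ D ∈ R.powerset, (∏ i ∈ D, t i)⁻¹ * T D x := by
    intro R x
    rw [hF]
    beta_reduce
    refine Finset.sum_congr rfl fun D hD => congrArg (fun z => (∏ i ∈ D, t i)⁻¹ * z) ?_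
    refine hdep D fun i hi => ?_
    have hiR : i ∈ R := (Finset.mem_powerset.1 hD) hi
    simp only [hiR, dif_pos, rst]
  have hΨ : ∀ x, ∑ D, T D x = ∑ R, bw t R * F R (rst R x) := by
    intro x
    have h1 : ∀ R : Finset ι, bw t R * F R (rst R x) =
        ∑ D, (∏ i ∈ D, t i)⁻¹ * T D x * (if D ⊆ R then bw t R else 0) := by
      intro R
      rw [hFx, ← Finset.sum_filter_add_sum_filter_not univ (fun D => D ⊆ R)]
      have h2 : ∑ D with ¬ D ⊆ R, (∏ i ∈ D, t i)⁻¹ * T D x * (if D ⊆ R then bw t R else 0) = 0 :=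
        Finset.sum_eq_zero fun D hD => by rw [if_neg (Finset.mem_filter.1 hD).2, mul_zero]
      have h3 : (univ.filter fun D : Finset ι => D ⊆ R) = R.powerset := by
        ext D
        simp
      rw [h2, add_zero, h3, Finset.mul_sum]
      refine Finset.sum_congr rfl fun D hD => ?_
      rw [if_pos (Finset.mem_powerset.1 hD)]
      ring
    rw [Finset.sum_congr rfl fun R _ => h1 R, Finset.sum_comm]
    refine Finset.sum_congr rfl fun D _ => ?_
    rw [← Finset.mul_sum, ← Finset.sum_filter, sum_bw_superset]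
    have := htD D
    field_simp
  have hA : ∀ x, ∑ R, bw t R * F R (rst R x) ^ 2 = AJ t T x := by
    intro x
    have h1 := sub_gen ht (fun D => (∏ i ∈ D, t i)⁻¹ * T D x)
    have h2 : ∀ R : Finset ι, bw t R * F R (rst R x) ^ 2 =
        bw t R * (∑ D ∈ R.powerset, (∏ i ∈ D, t i)⁻¹ * T D x) ^ 2 := by
      intro R
      rw [hFx]
    rw [Finset.sum_congr rfl fun R _ => h2 R, h1]
    unfold AJ
    refine Finset.sum_congr rfl fun J _ => ?_
    congr 2
    refine Finset.sum_congr rfl fun D _ => ?_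
    rw [← mul_assoc, mul_inv_cancel₀ (htD D), one_mul]
  -- change of measure for every `R`
  have hR : ∀ R : Finset ι, ∑ x, tau x * F R (rst R x) =
      ∑ x, mu x * ((marg tau R x / marg mu R x) * F R (rst R x)) := by
    intro R
    rw [← sum_push (rst R) tau (F R)]
    have h1 : ∀ x, mu x * ((marg tau R x / marg mu R x) * F R (rst R x)) =
        mu x * ((push (rst R) tau (rst R x) / push (rst R) mu (rst R x)) * F R (rst R x)) := by
      intro x
      rw [push_rst, push_rst]
    rw [Finset.sum_congr rfl fun x _ => h1 x,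
      ← sum_push (rst R) mu (fun v => (push (rst R) tau v / push (rst R) mu v) * F R v)]
    refine Finset.sum_congr rfl fun v _ => ?_
    by_cases h0 : push (rst R) mu v = 0
    · rw [hac.push hmu.1 (rst R) v h0, h0]
      simp
    · field_simp
  have h1 : ∑ x, tau x * ∑ D, T D x = ∑ p : Finset ι × (∀ i, V i),
      (bw t p.1 * mu p.2) * ((marg tau p.1 p.2 / marg mu p.1 p.2) * F p.1 (rst p.1 p.2)) := by
    have h2 : ∀ x, tau x * ∑ D, T D x = ∑ R, bw t R * (tau x * F R (rst R x)) := by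
      intro x
      rw [hΨ, Finset.mul_sum]
      exact Finset.sum_congr rfl fun R _ => by ring
    rw [Finset.sum_congr rfl fun x _ => h2 x, Finset.sum_comm, Fintype.sum_prod_type]
    refine Finset.sum_congr rfl fun R _ => ?_
    rw [← Finset.mul_sum, hR R, Finset.mul_sum]
    exact Finset.sum_congr rfl fun x _ => by ring
  have h3 : chi t mu tau = ∑ p : Finset ι × (∀ i, V i),
      (bw t p.1 * mu p.2) * (marg tau p.1 p.2 / marg mu p.1 p.2) ^ 2 := by
    unfold chi chiR
    rw [Fintype.sum_prod_type]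
    refine Finset.sum_congr rfl fun R _ => ?_
    rw [Finset.mul_sum]
    exact Finset.sum_congr rfl fun x _ => by ring
  have h4 : ∑ x, mu x * AJ t T x = ∑ p : Finset ι × (∀ i, V i),
      (bw t p.1 * mu p.2) * (F p.1 (rst p.1 p.2)) ^ 2 := by
    rw [Fintype.sum_prod_type, Finset.sum_comm]
    refine Finset.sum_congr rfl fun x _ => ?_
    rw [← hA x, Finset.mul_sum]
    exact Finset.sum_congr rfl fun R _ => by ring
  rw [h1, h3, h4]
  exact wcs _ _ _ _ fun p _ => mul_nonneg (hw0 _) (hmu.1 _)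

/-! ### replicas -/

/-- replica `0` carries `tau`, the others carry `mu` -/
def mus (mu tau : (∀ i, V i) → ℝ) (d : ℕ) (r : Fin (d + 1)) : (∀ i, V i) → ℝ :=
  if r = 0 then tau else mu

theorem AC_rps {mu tau : (∀ i, V i) → ℝ} (hac : AC tau mu) (d : ℕ) :
    AC (rps (mus mu tau d)) (rep mu (d + 1) : (∀ p : ι × Fin (d + 1), V p.1) → ℝ) := by
  intro y hy
  rw [rep_eq_rps] at hy
  unfold rps at hy ⊢
  obtain ⟨r, hr, h0⟩ := Finset.prod_eq_zero_iff.1 hy
  refine Finset.prod_eq_zero hr ?_
  unfold mus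
  split_ifs
  · exact hac _ h0
  · exact h0

theorem marg_ne {mu : (∀ i, V i) → ℝ} (hmu : ∀ x, 0 ≤ mu x) (R : Finset ι) {x : ∀ i, V i}
    (hx : mu x ≠ 0) : marg mu R x ≠ 0 :=
  (lt_of_lt_of_le (lt_of_le_of_ne (hmu x) hx.symm) (le_marg hmu R x)).ne'

theorem chiR_rps {mu tau : (∀ i, V i) → ℝ} (hmu : IsLaw mu) (d : ℕ)
    (R : Finset (ι × Fin (d + 1))) :
    chiR (rep mu (d + 1)) (rps (mus mu tau d)) R = chiR mu tau (sl R 0) := by
  have h1 : ∀ y : (∀ p : ι × Fin (d + 1), V p.1),
      rep mu (d + 1) y * (marg (rps (mus mu tau d)) R y / marg (rep mu (d + 1)) R y) ^ 2 =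
      ∏ r, (mu (sly y r) * if r = 0 then
        (marg tau (sl R r) (sly y r) / marg mu (sl R r) (sly y r)) ^ 2 else 1) := by
    intro y
    by_cases hy : rep mu (d + 1) y = 0
    · rw [hy, zero_mul]
      rw [rep_eq_rps] at hy
      unfold rps at hy
      obtain ⟨r, hr, h0⟩ := Finset.prod_eq_zero_iff.1 hy
      have h0' : mu (sly y r) = 0 := h0
      exact (Finset.prod_eq_zero hr (by rw [h0', zero_mul])).symm
    · have hr : ∀ r, mu (sly y r) ≠ 0 := by
        rw [rep_eq_rps] at hy
        unfold rps at hy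
        intro r
        exact Finset.prod_ne_zero_iff.1 hy r (Finset.mem_univ r)
      rw [rep_eq_rps, marg_rps, marg_rps, ← Finset.prod_div_distrib, ← Finset.prod_pow]
      unfold rps
      rw [← Finset.prod_mul_distrib]
      refine Finset.prod_congr rfl fun r _ => ?_
      congr 1
      unfold mus
      by_cases h : r = 0
      · rw [if_pos h, if_pos h]
      · rw [if_neg h, if_neg h, div_self (marg_ne hmu.1 _ (hr r)), one_pow]
  unfold chiR
  rw [Finset.sum_congr rfl fun y _ => h1 y,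
    sum_slices (fun r x => mu x * if r = 0 then
      (marg tau (sl R r) x / marg mu (sl R r) x) ^ 2 else 1)]
  rw [Fin.prod_univ_succ]
  have h2 : ∀ r : Fin d, ∑ x, mu x * (if r.succ = 0 then
      (marg tau (sl R r.succ) x / marg mu (sl R r.succ) x) ^ 2 else 1) = 1 := by
    intro r
    simp only [Fin.succ_ne_zero, if_false, mul_one]
    exact hmu.2
  rw [Finset.prod_congr rfl fun r _ => h2 r, Finset.prod_const_one, mul_one]
  refine Finset.sum_congr rfl fun x _ => ?_
  rw [if_pos rfl]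

theorem chi_rps (t : ι → ℝ) {mu tau : (∀ i, V i) → ℝ} (hmu : IsLaw mu) (d : ℕ) :
    chi (rt t (d + 1)) (rep mu (d + 1)) (rps (mus mu tau d)) = chi t mu tau := by
  unfold chi
  rw [← sum_bw_slice t (0 : Fin (d + 1)) (fun S => chiR mu tau S)]
  exact Finset.sum_congr rfl fun R _ => by rw [chiR_rps hmu]

/-- the rotated family is a family of degree `d` -/
theorem isFam_rot0 (mu : (∀ i, V i) → ℝ) (d : ℕ)
    (psi : Finset ι → (∀ i, V i) → ℝ) (hloc : ∀ e, DependsOn (psi e) (e : Set ι)) :
    IsFam (V := fun p : ι × Fin (d + 1) => V p.1) (H742.rep mu (d + 1)) ∅ d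
      (rotT d psi) where
  deg D hD := by
    funext y
    exact rotT_card d psi D hD y
  off D hD := absurd (Finset.disjoint_empty_right D) hD
  dep D := dep_of_loc (rotT_loc d psi (fun e => loc_of_dep (hloc e)) D)
  zz J hJ z := by
    have := rotT_Z mu d psi (fun e => loc_of_dep (hloc e)) J hJ z
    simp_rw [mix_eq] at this
    exact this

/-- **The exact testing identity** for a signed measure in replica `0`. -/
theorem test_rps (lam : ∀ i, V i → ℝ) (hlam : ∀ i, ∑ a, lam i a = 1)
    (mu tau : (∀ i, V i) → ℝ) (hmu : ∑ x, mu x = 1)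
    (hac : ∀ A x, lw lam A x = 0 → marg mu A x = 0)
    (hac' : ∀ A x, lw lam A x = 0 → marg tau A x = 0)
    (d : ℕ) (k : Finset ι → (∀ i, V i) → ℝ) (hk : IsConn lam mu tau k)
    (psi : Finset ι → (∀ i, V i) → ℝ) (hloc : ∀ e, DependsOn (psi e) (e : Set ι))
    (hcard : ∀ e, e.card ≠ d → psi e = 0) :
    ∑ y, rps (mus mu tau d) y * ∑ D, rotT d psi D y = ∑ e, ∑ x, W lam x * (psi e x * k e x) := by
  classical
  have hψ : ∀ e, Loc e (psi e) := fun e => loc_of_dep (hloc e)
  have h1 : ∀ y : (∀ p : ι × Fin (d + 1), V p.1), ∑ D, rotT d psi D y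
      = ∑ q ∈ Idx ι d, ((wt d q.1 q.2).re * psi q.1 (fun j => y (j, q.2 j))) := by
    intro y
    have := sum_rotT d psi (fun _ => 1) y
    simpa using this
  have h2 : ∀ y : (∀ p : ι × Fin (d + 1), V p.1),
      rps (mus mu tau d) y * ∑ D, rotT d psi D y
      = ∑ q ∈ Idx ι d, (wt d q.1 q.2).re *
        (rps (mus mu tau d) y * psi q.1 (fun j => y (j, q.2 j))) := by
    intro y
    rw [h1, mul_sum]
    exact sum_congr rfl fun q _ => by ring
  rw [sum_congr rfl fun y _ => h2 y, sum_comm]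
  simp_rw [← mul_sum]
  rw [sum_Idx (fun e ρ => (wt d e ρ).re * ∑ y : (∀ p : ι × Fin (d + 1), V p.1),
    rps (mus mu tau d) y * psi e (fun j => y (j, ρ j)))]
  have h3 : ∑ e, ∑ x, W lam x * (psi e x * k e x)
      = ∑ e ∈ powersetCard d (univ : Finset ι), ∑ x, W lam x * (psi e x * k e x) := by
    symm
    refine sum_subset (subset_univ _) fun e _ he => ?_
    have : e.card ≠ d := fun hc => he (mem_powersetCard.mpr ⟨subset_univ _, hc⟩)
    rw [hcard e this]
    simp
  rw [h3]
  refine sum_congr rfl fun e he => ?_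
  have hed := (mem_powersetCard.mp he).2
  -- one transversal
  have h4 : ∀ ρ : ι → Fin (d + 1), ∑ y : (∀ p : ι × Fin (d + 1), V p.1),
      rps (mus mu tau d) y * psi e (fun j => y (j, ρ j)) =
      ∑ v, W lam v * (psi e v * ∏ r, (if r = 0 then
        H742.gr lam tau (e.filter fun j => ρ j = r) v
        else H742.gr lam mu (e.filter fun j => ρ j = r) v)) := by
    intro ρ
    have h5 := repF_point (mus mu tau d) lam hlam e ρ (psi e) (hψ e)
    have h6 : ∀ y : (∀ p : ι × Fin (d + 1), V p.1), rps (mus mu tau d) y =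
      repF (mus mu tau d) y := fun y => rfl
    simp_rw [h6]
    rw [h5]
    refine sum_congr rfl fun v _ => ?_
    have h7 : ∀ r, marg (mus mu tau d r) (e.filter fun j => ρ j = r) v =
        (∏ j ∈ e.filter (fun j => ρ j = r), lam j (v j)) * (if r = 0 then
          H742.gr lam tau (e.filter fun j => ρ j = r) v
          else H742.gr lam mu (e.filter fun j => ρ j = r) v) := by
      intro r
      unfold mus
      by_cases hr : r = 0
      · rw [if_pos hr, if_pos hr, marg_eq_lw_gr lam tau hac']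
        rfl
      · rw [if_neg hr, if_neg hr, marg_eq_lw_gr lam mu hac]
        rfl
    simp_rw [h7]
    rw [prod_mul_distrib, prod_fiberwise_of_maps_to (s := e) (t := univ) (g := ρ)
      (fun j _ => mem_univ _) (f := fun j => lam j (v j))]
    unfold W
    rw [← prod_mul_prod_compl e (fun j => lam j (v j))]
    ring
  simp_rw [h4]
  have h5 : ∀ ρ, (wt d e ρ).re * (∑ v, W lam v * (psi e v *
      ∏ r, (if r = 0 then H742.gr lam tau (e.filter fun j => ρ j = r) v
        else H742.gr lam mu (e.filter fun j => ρ j = r) v)))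
      = ∑ v, W lam v * (psi e v * (wt d e ρ *
        ∏ r, (if r = 0 then (H742.gr lam tau (e.filter fun j => ρ j = r) v : ℂ)
        else (H742.gr lam mu (e.filter fun j => ρ j = r) v : ℂ))).re) := by
    intro ρ
    have h6 : ∀ v : (∀ i, V i), (∏ r, (if r = 0 then
          (H742.gr lam tau (e.filter fun j => ρ j = r) v : ℂ)
        else (H742.gr lam mu (e.filter fun j => ρ j = r) v : ℂ)))
        = ((∏ r, (if r = 0 then H742.gr lam tau (e.filter fun j => ρ j = r) v
        else H742.gr lam mu (e.filter fun j => ρ j = r) v) : ℝ) : ℂ) := by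
      intro v
      push_cast
      refine prod_congr rfl fun r _ => ?_
      split_ifs <;> rfl
    simp_rw [h6, Complex.re_mul_ofReal]
    rw [mul_sum]
    exact sum_congr rfl fun v _ => by ring
  simp_rw [h5]
  rw [sum_comm]
  refine sum_congr rfl fun v _ => ?_
  rw [← mul_sum, ← mul_sum, ← Complex.re_sum]
  by_cases hW : W lam v = 0
  · rw [hW, zero_mul, zero_mul]
  · have h7 : ∑ ρ ∈ Rho d e, wt d e ρ * ∏ r, (if r = 0 then
        (H742.gr lam tau (e.filter fun j => ρ j = r) v : ℂ)
        else (H742.gr lam mu (e.filter fun j => ρ j = r) v : ℂ)) = (k e v : ℂ) := by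
      refine rot_conv (d := d) e hed.le (fun C => (H742.gr lam mu C v : ℂ))
        (fun C => (H742.gr lam tau C v : ℂ)) (fun C => (k C v : ℂ)) ?_ ?_
      · simp [H742.gr, lw, marg, hmu]
      · intro E _
        rw [hk E v hW]
        push_cast
        rfl
    rw [h7, Complex.ofReal_re]

/-- the weighted energy of order `d` of the connected part -/
noncomputable def enr (lam : ∀ i, V i → ℝ) (t : ι → ℝ) (k : Finset ι → (∀ i, V i) → ℝ)
    (d : ℕ) : ℝ :=
  ∑ e ∈ powersetCard d (univ : Finset ι), (∏ j ∈ e, t j) * ∑ x, W lam x * k e x ^ 2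

/-- **The energy of the connected part of a signed measure.** -/
theorem enr_conn_le {mu tau : (∀ i, V i) → ℝ} (hmu : IsLaw mu) (hact : AC tau mu)
    {lam : ∀ i, V i → ℝ} {L : ℝ} {D0 : ℕ} {t M : ι → ℝ} (hR : Ref lam L)
    (hac : ∀ A x, lw lam A x = 0 → marg mu A x = 0)
    (hI : I1M lam M D0 mu) (hM : ∀ i, 1 ≤ M i) (ht0 : ∀ i, 0 < t i)
    (ht1 : ∀ i, t i ≤ 1) {d : ℕ} (hD : d ≤ D0)
    (hN : NearOrthM (ι := ι × Fin (d + 1)) (V := fun p => V p.1) (rlam lam (d + 1))
      (rt t (d + 1)) (rt M (d + 1)) D0 (rep mu (d + 1)))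
    {k : Finset ι → (∀ i, V i) → ℝ} (hkdep : ∀ C : Finset ι, DependsOn (k C) (C : Set ι))
    (hk : IsConn lam mu tau k) :
    enr lam (fun j => t j / M j) k d ≤
      3 * ((d.factorial : ℝ) * ((d : ℝ) + 1) ^ d) * chi t mu tau := by
  classical
  have hM0 : ∀ i, 0 < M i := fun i => by linarith [hM i]
  have htM : ∀ i, 0 < t i / M i := fun i => div_pos (ht0 i) (hM0 i)
  have hPt : ∀ e : Finset ι, 0 < ∏ j ∈ e, t j / M j := fun e => prod_pos fun j _ => htM j
  obtain ⟨x0⟩ : Nonempty (∀ i, V i) := by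
    by_contra hc
    rw [not_nonempty_iff] at hc
    have := hmu.2
    simp at this
  -- `tau` vanishes where the reference does
  have hac' : ∀ A x, lw lam A x = 0 → marg tau A x = 0 := by
    intro A x h0
    have h1 := hac A x h0
    unfold marg at h1 ⊢
    have h2 := (Finset.sum_eq_zero_iff_of_nonneg (fun y _ => by
      show 0 ≤ if (∀ i ∈ A, y i = x i) then mu y else 0
      split_ifs
      · exact hmu.1 y
      · exact le_rfl)).1 h1
    refine Finset.sum_eq_zero fun y hy => ?_
    have h3 := h2 y hy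
    split_ifs with h
    · rw [if_pos h] at h3
      exact hact y h3
    · rfl
  set psi : Finset ι → (∀ i, V i) → ℝ := fun e x =>
    if e.card = d then (∏ j ∈ e, t j / M j) * k e x else 0 with hpsi
  have hloc : ∀ e, DependsOn (psi e) (e : Set ι) := by
    intro e x y hxy
    rw [hpsi]
    beta_reduce
    rw [hkdep e hxy]
  have hcpsi : ∀ e, e.card ≠ d → psi e = 0 := by
    intro e he
    funext x
    rw [hpsi]
    beta_reduce
    rw [if_neg he]
    rfl
  set Q := enr lam (fun j => t j / M j) k d with hQ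
  have htest : ∑ y, rps (mus mu tau d) y * ∑ D, rotT d psi D y = Q := by
    rw [test_rps lam hR.sum_one mu tau hmu.2 hac hac' d k hk psi hloc hcpsi, hQ]
    unfold enr
    rw [← Finset.sum_subset (Finset.subset_univ (powersetCard d (univ : Finset ι)))]
    · refine sum_congr rfl fun e he => ?_
      rw [mul_sum]
      refine sum_congr rfl fun x _ => ?_
      rw [hpsi]
      beta_reduce
      rw [if_pos (mem_powersetCard.1 he).2]
      ring
    · intro e _ he
      have : e.card ≠ d := fun hc => he (mem_powersetCard.mpr ⟨subset_univ _, hc⟩)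
      rw [hcpsi e this]
      simp
  have hnrmQ : nrm lam (fun j => t j / M j) psi = Q := by
    rw [hQ]
    unfold enr nrm
    rw [← Finset.sum_subset (Finset.subset_univ (powersetCard d (univ : Finset ι)))]
    · refine sum_congr rfl fun e he => ?_
      have h1 : ∀ x, W lam x * psi e x ^ 2 =
          (∏ j ∈ e, t j / M j) ^ 2 * (W lam x * k e x ^ 2) := by
        intro x
        rw [hpsi]
        beta_reduce
        rw [if_pos (mem_powersetCard.1 he).2]
        ring
      rw [sum_congr rfl fun x _ => h1 x, ← mul_sum]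
      have := (hPt e).ne'
      field_simp
    · intro e _ he
      have : e.card ≠ d := fun hc => he (mem_powersetCard.mpr ⟨subset_univ _, hc⟩)
      rw [hcpsi e this]
      simp
  have hQ0 : 0 ≤ Q := by
    rw [hQ]
    unfold enr
    exact sum_nonneg fun e _ => mul_nonneg (hPt e).le
      (sum_nonneg fun x _ => mul_nonneg (W_nonneg hR.nonneg x) (sq_nonneg _))
  have hfam := isFam_rot0 mu d psi hloc
  have h1 := cs_test (ι := ι × Fin (d + 1)) (V := fun p => V p.1) (t := rt t (d + 1))
    (fun p => ht0 p.1) (fun p => ht1 p.1) (isLaw_rep hmu (d + 1)) (AC_rps hact d)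
    (rotT d psi) hfam.dep
  rw [htest, chi_rps t hmu d] at h1
  have h2 := pint_AJ_leM (isLaw_rep hmu (d + 1)) (hR.rep (d + 1)) (hI.rep hmu (d + 1))
    (fun p => hM p.1) (fun p => ht0 p.1) (fun p => ht1 p.1) hN (W' := ∅)
    (fun p => x0 p.1) (by rw [card_empty]; omega) hfam
  rw [pint_empty, prod_empty, one_mul] at h2
  have hlw0 : lw (rlam lam (d + 1)) (∅ : Finset (ι × Fin (d + 1))) (fun p => x0 p.1) = 1 := by
    unfold lw; simp
  rw [hlw0, one_mul] at h2
  have h3 := nrm_rotT lam hR.nonneg hR.sum_one (fun j => t j / M j)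
    (fun i => (htM i).le) d psi hloc
  rw [hnrmQ] at h3
  have hchi : 0 ≤ chi t mu tau := chi_nonneg (fun i => (ht0 i).le) ht1 hmu.1
  have hfac : (0 : ℝ) ≤ d.factorial := Nat.cast_nonneg _
  have h4 : Q ^ 2 ≤ chi t mu tau * (3 * ((d.factorial : ℝ) * (((d : ℝ) + 1) ^ d * Q))) := by
    refine h1.trans (mul_le_mul_of_nonneg_left (h2.trans ?_) hchi)
    refine mul_le_mul_of_nonneg_left ?_ (by norm_num)
    exact mul_le_mul_of_nonneg_left h3 hfac
  by_cases hQz : Q = 0
  · rw [hQz]
    positivity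
  · have hQp : 0 < Q := lt_of_le_of_ne hQ0 (Ne.symm hQz)
    have h5 : Q * Q ≤ Q * (3 * ((d.factorial : ℝ) * ((d : ℝ) + 1) ^ d) * chi t mu tau) := by
      calc Q * Q = Q ^ 2 := by ring
        _ ≤ _ := h4
        _ = _ := by ring
    exact le_of_mul_le_mul_left h5 hQp

end Vale.Agent.P042.H879
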